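import Vale.Agent.P281.H713.TZ.S3
import Vale.Agent.P281.H713.DefsO

/-! P281 (helper64): fibrations over the complement of a thin closed set. -/

open Set Filter Vale.Agent.P281 Vale.Agent.P281.J Vale.Agent.P281.H713
open scoped Topology ContDiff Manifold

noncomputable section

namespace Vale.Agent.P281.H64.Thin

variable (E E' E₀ : Type) [NormedAddCommGroup E] [NormedSpace ℂ E]
  [NormedAddCommGroup E'] [NormedSpace ℂ E'] [NormedAddCommGroup E₀] [NormedSpace ℂ E₀]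
  {X Z Y F : Type} [TopologicalSpace X] [ChartedSpace E X] [TopologicalSpace Z]
  [ChartedSpace E Z] [TopologicalSpace Y] [ChartedSpace E' Y] [TopologicalSpace F]
  [ChartedSpace E₀ F]

/-- `S` is closed and thin: locally, it is contained in a hypersurface `{g = 0}`, `g ≢ 0`
(for instance: a nowhere dense closed analytic subset of a connected manifold). -/
def IsThinSet (S : Set X) : Prop :=
  IsClosed S ∧ ∀ y, ∃ g : X → ℂ, HolAt E g y ∧ (¬ ∀ᶠ z in 𝓝 y, g z = 0) ∧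
    ∀ᶠ z in 𝓝 y, z ∈ S → g z = 0

/-- Over `Y ∖ S`, `f : Z → Y` is a proper submersion with connected fibres. -/
structure IsProperFibration (f : Z → Y) (S : Set Y) : Prop where
  proper : ∀ K : Set Y, IsCompact K → K ⊆ Sᶜ → IsCompact (f ⁻¹' K)
  submersive : ∀ x, f x ∉ S → Function.Surjective (mfderiv 𝓘(ℂ, E) 𝓘(ℂ, E') f x)
  connected : ∀ y, y ∉ S → IsConnected (f ⁻¹' {y})

/-- The horizontal part of `Δ` (the components which are not contained in `f⁻¹(S)`) is étale over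
`Y ∖ S`: over `Y ∖ S`, its components are disjoint, smooth and transversal to the fibres. -/
def IsEtale (f : Z → Y) (S : Set Y) (Δ : Set Z → ℝ) : Prop :=
  (∀ D ∈ horizontal f S Δ, ∀ x ∈ D, f x ∉ S → ∃ u, IsLocalEq E D u x ∧
    ∀ ξ : E, mfderiv 𝓘(ℂ, E) 𝓘(ℂ, E') f x ξ = 0 → dif E u x ξ = 0 → ξ = 0) ∧
  ∀ D ∈ horizontal f S Δ, ∀ D' ∈ horizontal f S Δ, D ≠ D' → ∀ x ∈ D ∩ D', f x ∈ S

/-- `X`, `Z`, `Y` are complex manifolds, `f : X ⇢ Y` is a meromorphic map, holomorphic on the open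
subset `j : Z → X` whose complement has codimension at least `2`, `S` is a thin closed subset of
`Y`, `Δ` is a rational SNC boundary of `X`, and `Δ'` is its restriction to `Z`. -/
def Setup (j : Z → X) (f : Z → Y) (S : Set Y) (Δ : Set X → ℝ) (Δ' : Set Z → ℝ) : Prop :=
  IsManifold 𝓘(ℂ, E) ω X ∧ IsManifold 𝓘(ℂ, E) ω Z ∧ IsManifold 𝓘(ℂ, E') ω Y ∧
    IsBigOpen E j ∧ ContMDiff 𝓘(ℂ, E) 𝓘(ℂ, E') ω f ∧ IsThinSet E' S ∧
    IsSNC E Δ ∧ IsSNC E Δ' ∧ IsRestriction j Δ Δ'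

/-- `i : F → Z` is a holomorphic immersion of the complex manifold `F` in a fibre of `f` over
`Y ∖ S`. -/
def InFibre (f : Z → Y) (S : Set Y) (i : F → Z) : Prop :=
  IsManifold 𝓘(ℂ, E₀) ω F ∧ ContMDiff 𝓘(ℂ, E₀) 𝓘(ℂ, E) ω i ∧
    (∀ t, Function.Injective (mfderiv 𝓘(ℂ, E₀) 𝓘(ℂ, E) i t)) ∧ ∃ y, y ∉ S ∧ ∀ t, f (i t) = y

end Vale.Agent.P281.H64.Thin
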