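import Vale.Agent.P281.H64.Thin.Core
import Vale.Agent.P281.H64.Thin.Main
import Vale.Agent.P281.H150.CO
import Vale.Agent.P281.H511.TD
import Vale.Agent.P281.H713.TZ.SFinD

/-! P281 (helper64): proper fibrations of relative dimension one over the complement of a thin
closed set. -/

open scoped Manifold ContDiff Topology
open Set Filter Vale.Agent.P272.K

noncomputable section

namespace Vale.Agent.P281.H64.Thin

open Vale.Agent.P281 Vale.Agent.P281.MF Vale.Agent.P281.ISO Vale.Agent.P281.H713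
open Vale.Agent.P281.H713.TZ Vale.Agent.P281.H713.TZ.S

set_option linter.all false

section Co

variable {p : ℕ} {Y : Type} [TopologicalSpace Y] [ChartedSpace (Cm p) Y]
  [IsManifold 𝓘(ℂ, Cm p) ω Y]

/-- The complement of a thin closed set in a connected manifold is connected. -/
theorem isPreconnected_compl [PreconnectedSpace Y] {S : Set Y} (hthin : IsThinSet (Cm p) S) :
    IsPreconnected Sᶜ := by
  classical
  obtain ⟨hcl, hS⟩ := hthin
  have hdense : Dense Sᶜ := IsThinSet.dense_compl ⟨hcl, hS⟩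
  have hO : IsOpen Sᶜ := hcl.isOpen_compl
  rw [isPreconnected_iff_subset_of_disjoint]
  intro u v hu hv huv hempty
  set A : Set Y := Sᶜ ∩ u with hAdef
  set B : Set Y := Sᶜ ∩ v with hBdef
  have hA : IsOpen A := hO.inter hu
  have hB : IsOpen B := hO.inter hv
  have hAB : Disjoint A B := by
    rw [disjoint_left]
    rintro y ⟨h1, h2⟩ ⟨_, h3⟩
    have : y ∈ Sᶜ ∩ (u ∩ v) := ⟨h1, h2, h3⟩
    rw [hempty] at this
    exact this
  have hsep : ∀ y, y ∉ closure A ∨ y ∉ closure B := by
    intro y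
    obtain ⟨g, hg, hne, hge⟩ := hS y
    refine H150.sep_thin hA hB hAB hg hne ?_
    filter_upwards [hge] with z hz hz0
    have hzS : z ∈ Sᶜ := fun h => hz0 (hz h)
    rcases huv hzS with h | h
    · exact Or.inl ⟨hzS, h⟩
    · exact Or.inr ⟨hzS, h⟩
  have h1 : closure A ∪ closure B = univ := by
    rw [← closure_union, ← inter_union_distrib_left, inter_eq_left.2 huv]
    exact hdense.closure_eq
  have h3 : IsClopen (closure A) := by
    refine ⟨isClosed_closure, ?_⟩
    have h4 : closure A = (closure B)ᶜ := by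
      ext x
      constructor
      · intro hx hx'
        rcases hsep x with h | h
        · exact h hx
        · exact h hx'
      · intro hx
        have : x ∈ closure A ∪ closure B := by rw [h1]; trivial
        exact this.resolve_right hx
    rw [h4]
    exact isClosed_closure.isOpen_compl
  rcases isClopen_iff.1 h3 with h4 | h4
  · right
    intro y hy
    rcases huv hy with h | h
    · exfalso
      have : y ∈ closure A := subset_closure ⟨hy, h⟩
      rw [h4] at this
      exact this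
    · exact h
  · left
    intro y hy
    rcases huv hy with h | h
    · exact h
    · exfalso
      have h5 : y ∈ closure B := subset_closure ⟨hy, h⟩
      have h6 : y ∈ closure A := by rw [h4]; trivial
      rcases hsep y with h | h
      · exact h h6
      · exact h h5

end Co

variable {n p : ℕ} {X Z Y F : Type} [TopologicalSpace X] [ChartedSpace (Cm n) X]
  [TopologicalSpace Z] [ChartedSpace (Cm n) Z] [TopologicalSpace Y] [ChartedSpace (Cm p) Y]

/-- `Y ∖ S` is connected. -/
theorem co_thin [T2Space X] [ConnectedSpace X] {j : Z → X} {f : Z → Y} {S : Set Y}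
    {Δ : Set X → ℝ} {Δ' : Set Z → ℝ} (h : Thin.Setup (Cm n) (Cm p) j f S Δ Δ')
    (hpf : Thin.IsProperFibration (Cm n) (Cm p) f S) : IsPreconnected Sᶜ := by
  obtain ⟨hX, hZ, hY, hj, hf, hS, -⟩ := h
  haveI : PreconnectedSpace Z := H949.TL.preconnected_big (n := n) hj
  have hr : Sᶜ ⊆ range f := by
    intro y hy
    obtain ⟨z, hz⟩ := (hpf.connected y hy).nonempty
    exact ⟨z, hz⟩
  haveI : PreconnectedSpace Y := by
    rw [preconnectedSpace_iff_univ, ← (hS.dense_compl.mono hr).closure_eq]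
    exact (isPreconnected_range hf.continuous).closure
  exact isPreconnected_compl hS

/-- A proper fibration of relative dimension one is a family of curves. -/
theorem isFamilyOfCurves (hn : n = p + 1) [T2Space X] [ConnectedSpace X] [T2Space Y]
    {j : Z → X} {f : Z → Y} {S : Set Y} {Δ : Set X → ℝ} {Δ' : Set Z → ℝ}
    (h : Thin.Setup (Cm n) (Cm p) j f S Δ Δ')
    (hP : Thin.IsProperFibration (Cm n) (Cm p) f S)
    (hE : Thin.IsEtale (Cm n) (Cm p) f S Δ') :
    IsFamilyOfCurves (Cm n) (Cm p) f S Δ' := by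
  have hc := co_thin h hP
  obtain ⟨hX, hZ, hY, hj, hf, hS, h3, h4, h5⟩ := h
  subst hn
  haveI := hj.2.1.toIsEmbedding.t2Space
  haveI := hZ
  haveI := hY
  exact H511.td p Z Y f S Δ' hf ⟨hS.1, hP.proper, hP.submersive, hP.connected⟩ hc h4.1
    (fun D hD => (h4.2.1 D hD).1) hE

/-- **fibrations of relative dimension one** -/
theorem oneS (hn : n = p + 1) {E₀ : Type} [NormedAddCommGroup E₀] [NormedSpace ℂ E₀]
    [FiniteDimensional ℂ E₀] (hE₀ : Module.finrank ℂ E₀ = 1) [T2Space X] [ConnectedSpace X]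
    [T2Space Y] [TopologicalSpace F] [CompactSpace F] [ConnectedSpace F] [ChartedSpace E₀ F]
    {Δ : Set X → ℝ} {Δ' : Set Z → ℝ} {j : Z → X} {f : Z → Y} {S : Set Y}
    (h : Thin.Setup (Cm n) (Cm p) j f S Δ Δ')
    (hP : Thin.IsProperFibration (Cm n) (Cm p) f S)
    (hE : Thin.IsEtale (Cm n) (Cm p) f S Δ') {i : F → Z} (hi : Thin.InFibre (Cm n) E₀ f S i) :
    kodR (Cm n) E₀ i Δ' + kodF n p Δ j f ≤ kodX (Cm n) Δ ∧
      KapLe (Cm n) (Cm p) f Δ' (kodF n p Δ j f) := by
  have hC := isFamilyOfCurves hn h hP hE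
  obtain ⟨hX, hZ, hY, hj, hf, hS, h3, h4, h5⟩ := h
  obtain ⟨hF, hi, hi', y, hy, hiy⟩ := hi
  constructor
  · rw [kodF_eq]
    exact main_oneS hn hE₀ j hj f hf S hS Δ h3 Δ' h4 h5 hC i hi hi' hy hiy
  · refine OrbLe.kapLe ?_
    have hsub : ∃ z, Function.Surjective (mfderiv 𝓘(ℂ, Cm n) 𝓘(ℂ, Cm p) f z) := by
      obtain ⟨t⟩ : Nonempty F := inferInstance
      exact ⟨i t, hP.submersive _ (by rw [hiy]; exact hy)⟩
    intro Γ hΓ₁ hΓ₂ hΓ₃ hnc hmor
    rw [kodF_eq]
    exact H713.CO.comp_g H413.TZ.genPart h3 hj hf hsub ⟨hΓ₁, hΓ₂, hΓ₃⟩ hnc h4 h5 hmor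

end Vale.Agent.P281.H64.Thin
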